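import Vale.Agent.P287T.To.Kz
import Vale.Agent.P287T.Cy.Main
import Vale.Agent.P287T.Dt.Defs

/-!
# The lattice `A₂` consists of classes of matrix factorizations; test objects
-/

set_option linter.unusedSectionVars false

noncomputable section

namespace Vale.Agent.P287T.To

open Module MvPolynomial CategoryTheory Pretriangulated P269 P287Q P287Q.Cub P287T.Cy P287T.Rr
  P287T.Top P287T.Cl P287T.G3 P287Z.O P287Z.O.L P287Z.T

variable {W : S6}

/-- **Every element of `A₂` is the class of a matrix factorization.** -/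
theorem real (hP : Per.StPer) (hM : StMem) (hL : Cl.StLat) (hA : StAdd) (c : Cu W) (r1 r2 : ℤ) :
    ∃ G : HM W, clE c G = r1 • l1 W + r2 • l2 W := by
  obtain ⟨e, h, he⟩ := exists_line hP hM hL c
  obtain ⟨a1, a2, -⟩ := hA c
  have tw1 : ∀ a : ℂ, (∃ G : HM W, clE c G = (a, 0)) → ∃ G : HM W, clE c G = (-om ^ 2 * a, 0) := by
    rintro a ⟨G, hG⟩
    exact ⟨_, by rw [a2 G, hG, Prod.neg_mk, neg_zero, neg_mul]⟩
  have ng : ∀ a : ℂ, (∃ G : HM W, clE c G = (a, 0)) → ∃ G : HM W, clE c G = (-a, 0) := fun a h => by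
    have := tw1 _ (tw1 _ (tw1 _ h))
    rwa [show -om ^ 2 * (-om ^ 2 * (-om ^ 2 * a)) = -a by
      linear_combination (-a * (om ^ 3 + 1)) * om_cube] at this
  have ad : ∀ a b : ℂ, (∃ G : HM W, clE c G = (a, 0)) → (∃ G : HM W, clE c G = (b, 0)) →
      ∃ G : HM W, clE c G = (a + b, 0) := by
    rintro a b ⟨G, hG⟩ ⟨G', hG'⟩
    refine ⟨_, (a1 _ (binaryProductTriangle_distinguished G G')).trans ?_⟩
    change clE c G + clE c G' = _
    rw [hG, hG', Prod.mk_add_mk, add_zero]
  have h0 : ∃ G : HM W, clE c G = (om ^ 2 - 1, 0) := ⟨ofRaw h, he⟩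
  let R : AddSubgroup ℂ :=
    { carrier := {a | ∃ G : HM W, clE c G = (a, 0)}
      add_mem' := fun {a b} => ad a b
      zero_mem' := by simpa using ad _ _ h0 (ng _ h0)
      neg_mem' := fun {a} => ng a }
  have k2 : eis ![0, 1, -1] ∈ R := by
    have := ng _ (tw1 _ h0)
    rwa [show -(-om ^ 2 * (om ^ 2 - 1)) = eis ![0, 1, -1] by
      simp only [eis, Matrix.cons_val_zero, Matrix.cons_val_one, Matrix.cons_val]
      push_cast
      linear_combination om * om_cube] at this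
  have k1 : eis ![1, -1, 0] ∈ R := by
    have := tw1 _ (tw1 _ h0)
    rwa [show -om ^ 2 * (-om ^ 2 * (om ^ 2 - 1)) = eis ![1, -1, 0] by
      simp only [eis, Matrix.cons_val_zero, Matrix.cons_val_one, Matrix.cons_val]
      push_cast
      linear_combination (om ^ 3 - om + 1) * om_cube] at this
  obtain ⟨G, hG⟩ := R.add_mem (R.zsmul_mem k1 r1) (R.zsmul_mem k2 r2)
  exact ⟨G, by rw [hG, l1, l2, Prod.smul_mk, Prod.smul_mk, Prod.mk_add_mk, smul_zero, smul_zero,
    add_zero]⟩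

theorem mk_A2 (r1 r2 : ℤ) {v : Cls W} {p1 p2 : ℤ} (h : Pq v.1 p1 p2) :
    mk (r1 • l1 W + r2 • l2 W) v = (r1 * p1 + r2 * p2 : ℤ) := by
  obtain ⟨u, e, rfl, rfl⟩ := h
  rw [← mu_mv, map_add, map_zsmul, map_zsmul, map_add, map_zsmul, map_zsmul, LinearMap.add_apply,
    LinearMap.smul_apply, LinearMap.smul_apply, mu_apply, mu_apply]
  simp only [mv_apply, l1, l2, e, dotProduct, Fin.sum_univ_three, al_eis, zero_mul, map_zero,
    Matrix.cons_val_zero, Matrix.cons_val_one, Matrix.cons_val, zsmul_eq_mul]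
  push_cast
  ring

variable {ι κ : Type} [Fintype ι] [DecidableEq ι] [Fintype κ] [DecidableEq κ]

theorem main_low {p : ι → ℤ} {q : κ → ℤ} (d : Matrix ι ι S6) (e : Matrix κ κ S6) {j : ℤ}
    (h : ∀ l i, j + p l - q i < 0) : finrank ℂ (HH p d q e j) = 0 := by
  have : Subsingleton (HH p d q e j) := hq_subsingleton fun f hf => by
    rw [show f = 0 from Matrix.ext fun i l => hga_neg_eq_zero (hf.1 i l) (h l i)]
    exact zero_mem _
  exact finrank_zero_of_subsingleton

/-- The truncated Euler characteristic is the Euler characteristic. -/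
theorem exists_window (c : Cu W) (p : ι → ℤ) {q : κ → ℤ} {e : Matrix κ κ S6} (he : IsMF W q e) :
    ∃ (a : ℤ) (n : ℕ), Dt.Lo p q a ∧ ∀ d, IsMF W p d → Dt.Chi p q e a n d = Rr.chi q e p d := by
  obtain ⟨b, hb⟩ := (Set.finite_range fun x : κ × ι => (q x.1 - p x.2).natAbs).bddAbove
  have h1 : ∀ l i, (q l - p i).natAbs ≤ b := fun l i => hb ⟨(l, i), rfl⟩
  refine ⟨-(2 * b), 4 * b + 3, fun l i => by have := h1 l i; omega, fun d hd => ?_⟩
  rw [Rr.chi, finsum_eq_sum_of_support_subset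
    (s := (Finset.range (4 * b + 3)).image fun k : ℕ => -(2 * b : ℤ) + k) _ fun k hk => ?_,
    Finset.sum_image fun x _ y _ h => by simpa using h]
  · refine Finset.sum_congr rfl fun k _ => ?_
    rw [Int.negOnePow_add, Int.negOnePow_even _ (even_neg.2 (even_two_mul _)), one_mul,
      Int.coe_negOnePow_natCast]
  · by_contra hn
    have h2 : k < -(2 * b) ∨ 2 * b + 3 ≤ k := by
      by_contra h2
      exact hn (Finset.mem_coe.2 (Finset.mem_image.2 ⟨(k + 2 * b).toNat,
        Finset.mem_range.2 (by omega), by omega⟩))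
    refine hk ?_
    rcases h2 with h2 | h2
    · simp [main_low (p := q) (q := p) e d (j := 3 * k) fun l i => by have := h1 l i; omega]
    · simp [serre (kz_hg c.hom) c.sm he hd (j := 3 * k) (j' := 6 - 3 * k) (by ring),
        main_low (p := p) (q := q) d e (j := 6 - 3 * k) fun l i => by have := h1 i l; omega]

/-- An object with prescribed Euler characteristic against all objects of a primitive charge. -/
theorem exists_chi (hR : HRR) (hP : Per.StPer) (hM : StMem) (hL : Cl.StLat) (hA : StAdd) (c : Cu W)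
    {a0 : ℂ} (ha : PrimA a0) (s : ℤ) : ∃ (G : HM W) (r1 r2 : ℤ),
      clE c G = r1 • l1 W + r2 • l2 W ∧ ∀ {ι : Type} [Fintype ι] [DecidableEq ι] (p : ι → ℤ)
        (d : Matrix ι ι S6), IsMF W p d → zE p = (1 - om) ^ 3 * a0 →
          Rr.chi G.pz G.dz p d = s := by
  obtain ⟨p1, p2, hq, r1, r2, e⟩ := ha
  obtain ⟨G, hG⟩ := real hP hM hL hA c (-s * r1) (-s * r2)
  refine ⟨G, _, _, hG, fun p d hd hz => ?_⟩
  have := chi_eq hR c G.isMF hd
  rw [show cl c G.isMF = clE c G from rfl, hG, mk_A2 (p1 := p1) (p2 := p2) _ _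
    (by rwa [cl, hz, mul_div_cancel_left₀ _ c0_ne]), ← Int.cast_neg, Int.cast_inj] at this
  rw [this]
  linear_combination s * e

/-- **The test object.** -/
theorem test (hR : HRR) (hP : Per.StPer) (hM : StMem) (hL : Cl.StLat) (hA : StAdd) (c : Cu W)
    {a0 : ℂ} (ha : PrimA a0) (p : ι → ℤ) (hz : zE p = (1 - om) ^ 3 * a0) :
    ∃ (G : HM W) (a : ℤ) (n : ℕ), Dt.Lo p G.pz a ∧
      ∀ d, IsMF W p d → Dt.Chi p G.pz G.dz a n d = 1 := by
  obtain ⟨G, -, -, -, hG⟩ := exists_chi hR hP hM hL hA c ha 1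
  obtain ⟨a, n, h1, h2⟩ := exists_window c p G.isMF
  exact ⟨G, a, n, h1, fun d hd => (h2 d hd).trans (hG p d hd hz)⟩

end Vale.Agent.P287T.To
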