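import Vale.Agent.P287T.To.Ln
import Vale.Agent.P287T.Cl.St
import Vale.Agent.P287T.Oc.Flat
import Vale.Agent.P287T.Per.Top
import Vale.Agent.P287T.Per.Fil

/-!
# The Koszul factorization of a line has no primitive class

A class whose matrix factorization deforms in every direction is of type `(2, 2)` to first order in
every direction, hence zero by the local Torelli theorem.
-/

set_option linter.unusedSectionVars false

noncomputable section

namespace Vale.Agent.P287T.To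

open Set Function Matrix MvPolynomial Filter Topology Metric P291Z P269 P269.Holo P269.Mono P269.Coh
  P269.Tq P269.Hdg P287Q P287Q.Cub P287Q.Zc P287Q.Hb P287T.Cy P287T.Rr P287T.Df P287T.Top P287T.Cl P287Z.O P287Z.O.L

variable {ι : Type} [Fintype ι] [DecidableEq ι] {W : S6} {p : ι → ℤ} {d d' : Matrix ι ι S6}
  {l q l' q' : S6}

theorem kz_hg {n : ℕ} {f : S6} (hf : f.IsHomogeneous n) : V.Hg (2 * n) f :=
  hg_iff.2 fun m hm => by
    have : m.degree = n := by
      rw [Finsupp.degree_eq_weight_one]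
      exact hf (mem_support_iff.1 hm)
    rw [this]

/-- the charges of the tensor product with a factorization of rank one -/
def spc (p : ι → ℤ) : ι ⊕ ι → ℤ := Sum.elim p fun i => p i - 1

/-- the tensor product with the factorization `(l, q)` -/
def stp (d : Matrix ι ι S6) (l q : S6) : Matrix (ι ⊕ ι) (ι ⊕ ι) S6 :=
  fromBlocks d (l • 1) (q • 1) (-d)

theorem stp_mem (hd : d ∈ MM p p 3) (hl : l.IsHomogeneous 1) (hq : q.IsHomogeneous 2) :
    stp d l q ∈ MM (spc p) (spc p) 3 := by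
  rintro (i | i) (j | j)
  · exact hd i j
  · by_cases e : i = j
    · subst e
      have := kz_hg hl
      simp only [stp, spc, fromBlocks_apply₁₂, Matrix.smul_apply, one_apply_eq, smul_eq_mul,
        mul_one, Sum.elim_inl, Sum.elim_inr]
      rwa [show 3 + (p i - 1) - p i = 2 * (1 : ℕ) by omega]
    · simpa [stp, e] using hga_zero _
  · by_cases e : i = j
    · subst e
      have := kz_hg hq
      simp only [stp, spc, fromBlocks_apply₂₁, Matrix.smul_apply, one_apply_eq, smul_eq_mul,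
        mul_one, Sum.elim_inl, Sum.elim_inr]
      rwa [show 3 + p i - (p i - 1) = 2 * (2 : ℕ) by omega]
    · simpa [stp, e] using hga_zero _
  · have := hga_neg (hd i j)
    simp only [stp, spc, fromBlocks_apply₂₂, Matrix.neg_apply, Sum.elim_inr]
    rwa [show 3 + (p j - 1) - (p i - 1) = 3 + p j - p i by omega]

theorem stp_sq (hd : d * d = W • (1 : Matrix ι ι S6)) :
    stp d l q * stp d l q = (W + l * q) • (1 : Matrix (ι ⊕ ι) (ι ⊕ ι) S6) := by
  rw [stp, fromBlocks_multiply, ← fromBlocks_one, fromBlocks_smul]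
  simp [hd, add_smul, smul_smul, mul_comm, add_comm]

theorem stp_add (s : ℂ) : stp (d + s • d') (l + s • l') (q + s • q') =
    stp d l q + s • stp d' l' q' := by
  rw [stp, stp, stp, fromBlocks_smul, fromBlocks_add]
  simp [add_smul, add_comm]

theorem stp_mf (hd : IsMF W p d) (hl : l.IsHomogeneous 1) (hq : q.IsHomogeneous 2) :
    IsMF (W + l * q) (spc p) (stp d l q) := ⟨stp_mem hd.deg hl hq, stp_sq hd.sq⟩

theorem zE_spc (p : ι → ℤ) : zE (spc p) = zE p * (1 - om ^ 2) := by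
  have h0 : ζ ≠ 0 := ζ_eq ▸ neg_ne_zero.2 om_ne
  have h1 : ζ⁻¹ = -om ^ 2 :=
    inv_eq_of_mul_eq_one_right (by rw [ζ_eq]; linear_combination om_cube)
  simp only [zE, spc, Fintype.sum_sum_type, Sum.elim_inl, Sum.elim_inr, zpow_sub_one₀ h0, h1,
    ← Finset.sum_mul]
  ring

/-- the generators of the Koszul factorization -/
abbrev K3 : Type := ((Unit ⊕ Unit) ⊕ Unit ⊕ Unit) ⊕ (Unit ⊕ Unit) ⊕ Unit ⊕ Unit

/-- the charges of the Koszul factorization -/
def kp : K3 ⊕ K3 → ℤ := spc (spc (spc (spc fun _ => 0)))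

/-- the Koszul factorization of `∑ lᵢ qᵢ` -/
def ko (l q : Fin 4 → S6) : Matrix (K3 ⊕ K3) (K3 ⊕ K3) S6 :=
  stp (stp (stp (stp 0 (l 0) (q 0)) (l 1) (q 1)) (l 2) (q 2)) (l 3) (q 3)

theorem ko_mf {l q : Fin 4 → S6} (hl : ∀ i, (l i).IsHomogeneous 1)
    (hq : ∀ i, (q i).IsHomogeneous 2) : IsMF (∑ i, l i * q i) kp (ko l q) := by
  have h0 : IsMF (0 : S6) (fun _ : Unit => (0 : ℤ)) 0 := ⟨zero_mem _, by simp⟩
  have := stp_mf (stp_mf (stp_mf (stp_mf h0 (hl 0) (hq 0)) (hl 1) (hq 1)) (hl 2) (hq 2))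
    (hl 3) (hq 3)
  rwa [zero_add, ← Fin.sum_univ_four fun i => l i * q i] at this

theorem ko_add (l q l' q' : Fin 4 → S6) (s : ℂ) :
    ko (l + s • l') (q + s • q') = ko l q + s • ko l' q' := by
  simp only [ko, ← stp_add, smul_zero, add_zero, Pi.add_apply, Pi.smul_apply]

theorem zE_kp : zE kp = (1 - om) ^ 3 * (om ^ 2 - 1) := by
  simp only [kp, zE_spc]
  simp only [zE, Finset.univ_unique, zpow_zero, Finset.sum_singleton]
  linear_combination (om ^ 6 - om ^ 5 - 4 * om ^ 4 + 6 * om ^ 3 + om ^ 2 - 5 * om + 2) * om_sq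

theorem kz_abs {Y : PS} {T : ℤ → ℤ → Submodule ℂ (H Y.X)} {h σ n : H Y.X} (c : CubH Y T h)
    (hσ : σ ∈ T 3 1) (hn : n ∈ T 2 2) (h0 : h * n = 0)
    (k : ∀ y, H.IsDeg 4 y → h * y = 0 → Y.J (y * σ) = 0 → Y.J (n * y) = 0) : n = 0 := by
  have e4 := c.n
  refine c.hg.nondeg hn fun w hw => ?_
  rw [e4] at hw
  replace hw : w ∈ T 2 2 := hw
  have h2 : h ^ 2 ∈ T 2 2 := c.η_mem
  have h3 : w - (Y.J (h ^ 2 * w) / 3) • h ^ 2 ∈ T 2 2 := sub_mem hw (Submodule.smul_mem _ _ h2)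
  have h4 := k _ (c.hg.deg _ _ _ h3) ((Per.fil_prim_iff c (c.hg.deg _ _ _ h3)).2 (by
    rw [mul_sub, mul_smul_comm, ← pow_add, map_sub, map_smul, c.deg, smul_eq_mul]
    ring)) (c.hg.J_mul_eq_zero h3 hσ (by omega))
  have h5 : Y.J (n * h ^ 2) = 0 := by
    rw [← J_comm (k := 2) (c.hg.deg 2 2 n hn), sq, mul_assoc, h0, mul_zero, map_zero]
  rwa [mul_sub, mul_smul_comm, map_sub, map_smul, h5, smul_zero, sub_zero] at h4

/-- **A factorization which deforms in every direction has no primitive class.** -/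
theorem kz_zero (hP : Per.StPer) (hM : StMem) (hL : Cl.StLat) (c : Cu W) (d0 : MM p p 3)
    (h0 : IsMF W p d0.1) (hd : ∀ A : S6, A.IsHomogeneous 3 → ∃ B : S6, B.IsHomogeneous 3 ∧
      ∃ d1 : MM p p 3, ∀ s : ℂ, IsMF (W + (s • A + s ^ 2 • B)) p (d0 + s • d1).1) :
    nH c h0 = 0 := by
  obtain ⟨r, Φ, σ, η, k⟩ := hP T3 c.per p3 p3_hom
  have t0 : (0 : T3) ∈ ball 0 r := mem_ball_self k.pos
  have c' : Cu (W + p3 0) := (k.sm 0 t0).cu
  have h0' : IsMF (W + p3 0) p d0.1 := by rwa [map_zero, add_zero]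
  suffices h : nH c' h0' = 0 by
    have : ∀ W' (e : W' = W) (c' : Cu W') (h' : IsMF W' p d0.1), nH c' h' = 0 → nH c h0 = 0 := by
      rintro _ rfl _ _ h; exact h
    exact this _ (by rw [map_zero, add_zero]) c' h0' h
  obtain ⟨s0, hs0, -, es0⟩ := k.om 0 t0
  obtain ⟨a1, a2, a3, a4, -⟩ := Per.stTop c.per c'.per (k.tr 0 t0)
  refine kz_abs c'.per.cubH hs0 (hM c' h0').2 ((hL c').prim _ (hM c' h0').1).2.1
    fun y y1 y2 y3 => ?_
  obtain ⟨a, ha⟩ := k.onto p3_onto 0 t0 (H.map (k.tr 0 t0).φ y) ((a4 _ _).2 y1)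
    (by rw [← a1, ← map_mul, y2, map_zero]) (by rw [es0, ← map_mul, a2]; exact y3)
  obtain ⟨B, hB, d1, h1⟩ := hd _ (p3_hom a)
  obtain ⟨b, rfl⟩ := p3_onto B hB
  have ct : HasDerivAt (fun s : ℂ => s • a + s ^ 2 • b) a 0 := by
    simpa using ((hasDerivAt_id (0 : ℂ)).smul_const a).fun_add
      ((hasDerivAt_pow 2 (0 : ℂ)).smul_const b)
  have e0 : (0 : ℂ) • a + (0 : ℂ) ^ 2 • b = 0 := by simp
  have c1 : Tendsto (fun s : ℂ => s • a + s ^ 2 • b) (𝓝 0) (𝓝 0) := e0 ▸ ct.continuousAt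
  have c2 : Tendsto (fun s : ℂ => d0 + s • d1) (𝓝 0) (𝓝 d0) := by
    have : Continuous fun s : ℂ => d0 + s • d1 :=
      continuous_const.add (continuous_id.smul continuous_const)
    simpa using this.tendsto 0
  have ev : (fun s : ℂ => c.per.J (H.map (k.tr 0 t0).φ (nH c' h0') * σ (s • a + s ^ 2 • b))) =ᶠ[𝓝 0]
      fun _ => 0 := by
    filter_upwards [(c1.prodMk_nhds c2).eventually (Oc.flat Per.stTop k t0 c' h0'),
      c1.eventually (isOpen_ball.mem_nhds t0)] with s e ht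
    replace ht : s • a + s ^ 2 • b ∈ ball 0 r := ht
    have hs : IsMF (W + p3 (s • a + s ^ 2 • b)) p (d0 + s • d1).1 := by
      rw [map_add, map_smul, map_smul]; exact h1 s
    obtain ⟨s1, hs1, n1, es1⟩ := k.om _ ht
    have cs := (k.sm _ ht).cu
    have e' : H.map (k.tr _ ht).φ (nH cs hs) = H.map (k.tr 0 t0).φ (nH c' h0') := e ht cs hs
    rw [← e', es1, ← map_mul, (Per.stTop c.per cs.per (k.tr _ ht)).2.1]
    exact ((Per.stFil.t22 cs.per s1 hs1 n1 _ (cs.per.cubH.hg.deg _ _ _ (hM cs hs).2)).1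
      (hM cs hs).2).1
  have h2 := ((k.an (H.map (k.tr 0 t0).φ (nH c' h0')) 0 t0).differentiableAt.hasFDerivAt
    ).comp_hasDerivAt_of_eq (0 : ℂ) ct e0.symm
  have h3 := h2.unique ((hasDerivAt_const (0 : ℂ) (0 : ℂ)).congr_of_eventuallyEq ev)
  rw [k.der _ 0 t0, ha, ← map_mul, a2] at h3
  exact h3

/-- **The factorization of a line.** -/
theorem exists_line (hP : Per.StPer) (hM : StMem) (hL : Cl.StLat) (c : Cu W) :
    ∃ (e : Matrix (K3 ⊕ K3) (K3 ⊕ K3) S6) (h : IsMF W kp e), cl c h = (om ^ 2 - 1, 0) := by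
  obtain ⟨l, q, hl, hq, e, hA⟩ := line c.hom c.sm
  have h : IsMF W kp (ko l q) := e ▸ ko_mf hl hq
  refine ⟨ko l q, h, Prod.ext (by rw [cl, zE_kp, mul_div_cancel_left₀ _ c0_ne])
    (kz_zero hP hM hL c ⟨ko l q, h.deg⟩ h fun A a3 => ?_)⟩
  obtain ⟨a, b, ha, hb, rfl⟩ := hA A a3
  refine ⟨∑ i, b i * a i, IsHomogeneous.sum _ _ _ fun i _ => (hb i).mul (ha i),
    ⟨ko b a, (ko_mf hb ha).deg⟩, fun s => ?_⟩
  have := ko_mf (l := l + s • b) (q := q + s • a)
    (fun i => (hl i).add ((homogeneousSubmodule _ _ _).smul_mem s (hb i)))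
    fun i => (hq i).add ((homogeneousSubmodule _ _ _).smul_mem s (ha i))
  rw [ko_add] at this
  refine (congrArg (fun W => IsMF W kp _) ?_).mp this
  rw [e]
  simp only [Fin.sum_univ_four, Pi.add_apply, Pi.smul_apply, smul_eq_C_mul, map_pow]
  ring

end Vale.Agent.P287T.To
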