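import Vale.Agent.P297.H572.Half.Zero
import Mathlib.RingTheory.MvPolynomial.Homogeneous
import Mathlib.Algebra.MvPolynomial.PDeriv
import Mathlib.Analysis.Complex.Polynomial.Basic
import Mathlib.LinearAlgebra.Basis.VectorSpace

/-!
# A line on a smooth cubic fourfold

`W = ∑ lᵢ qᵢ` with four linear forms, and every cubic form is a tangent vector of the family of
such sums.
-/

namespace Vale.Agent.P287T.To

open MvPolynomial

/-- Binary quadrics without common zero generate the binary cubics. -/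
theorem ln_bin (α β γ : Fin 4 → ℂ)
    (h : ∀ s t : ℂ, (∀ i, α i * s ^ 2 + β i * (s * t) + γ i * t ^ 2 = 0) → s = 0 ∧ t = 0)
    (c : Fin 4 → ℂ) : ∃ e f : Fin 4 → ℂ, c 0 = ∑ i, e i * α i ∧
      c 1 = ∑ i, (e i * β i + f i * α i) ∧ c 2 = ∑ i, (e i * γ i + f i * β i) ∧
        c 3 = ∑ i, f i * γ i := by
  let v : Fin 4 ⊕ Fin 4 → Fin 4 → ℂ :=
    Sum.elim (fun i => ![α i, β i, γ i, 0]) fun i => ![0, α i, β i, γ i]
  have ht : Submodule.span ℂ (Set.range v) = ⊤ := by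
    by_contra hn
    obtain ⟨φ, h0, hφ⟩ := Submodule.exists_le_ker_of_lt_top _ (lt_top_iff_ne_top.2 hn)
    let w : Fin 4 → ℂ := fun j => φ fun i => if j = i then 1 else 0
    have hw : ∀ x, φ x = x 0 * w 0 + x 1 * w 1 + x 2 * w 2 + x 3 * w 3 := fun x => by
      rw [LinearMap.pi_apply_eq_sum_univ φ x, Fin.sum_univ_four]
      rfl
    have h1 : ∀ i, α i * w 0 + β i * w 1 + γ i * w 2 = 0 := fun i => by
      have := hφ (Submodule.subset_span ⟨Sum.inl i, rfl⟩)
      rw [LinearMap.mem_ker, hw] at this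
      simpa [v] using this
    have h2 : ∀ i, α i * w 1 + β i * w 2 + γ i * w 3 = 0 := fun i => by
      have := hφ (Submodule.subset_span ⟨Sum.inr i, rfl⟩)
      rw [LinearMap.mem_ker, hw] at this
      simpa [v] using this
    have h3 : ∀ A B C : ℂ, A * C = B ^ 2 → (∀ i, α i * A + β i * B + γ i * C = 0) →
        A = 0 ∧ B = 0 ∧ C = 0 := fun A B C e k => by
      have a := h A B fun i => by linear_combination A * k i - γ i * e
      have b := h B C fun i => by linear_combination C * k i - α i * e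
      exact ⟨a.1, a.2, b.2⟩
    obtain ⟨u, hu, hq⟩ := P297.H572.Half.common_zero (k := ℂ) (σ := Fin 2) (τ := Unit) (by simp)
      (fun _ => (X 0 * C (w 0) + X 1 * C (w 1)) * (X 0 * C (w 2) + X 1 * C (w 3)) -
        (X 0 * C (w 1) + X 1 * C (w 2)) ^ 2) (fun _ => by simp)
    have hq' := hq ()
    simp only [map_sub, map_mul, map_add, map_pow, aeval_X, aeval_C, Algebra.algebraMap_self,
      RingHom.id_apply, sub_eq_zero] at hq'
    obtain ⟨a, b, d⟩ := h3 _ _ _ hq' fun i => by linear_combination u 0 * h1 i + u 1 * h2 i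
    have hw0 : w 0 = 0 ∧ w 1 = 0 ∧ w 2 = 0 ∧ w 3 = 0 := by
      by_cases e1 : u 1 = 0
      · have e0 : u 0 ≠ 0 := fun e0 => hu (funext fun j => by fin_cases j <;> simp [e0, e1])
        rw [e1, zero_mul, add_zero, mul_eq_zero, or_iff_right e0] at a b d
        refine ⟨a, b, d, (h3 (w 1) (w 2) (w 3) (by rw [b, d]; ring) h2).2.2⟩
      · have k := h3 (w 0) (w 1) (w 2)
          (mul_left_cancel₀ e1 (by linear_combination w 0 * b - w 1 * a)) h1
        rw [k.2.2, mul_zero, zero_add, mul_eq_zero, or_iff_right e1] at d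
        exact ⟨k.1, k.2.1, k.2.2, d⟩
    exact h0 (LinearMap.ext fun x => by
      rw [hw, hw0.1, hw0.2.1, hw0.2.2.1, hw0.2.2.2]; simp)
  obtain ⟨g, hg⟩ := (Submodule.mem_span_range_iff_exists_fun ℂ).1 (ht ▸ Submodule.mem_top (x := c))
  refine ⟨fun i => g (Sum.inl i), fun i => g (Sum.inr i), ?_, ?_, ?_, ?_⟩ <;>
    simp [← hg, v, Fintype.sum_sum_type, Finset.sum_add_distrib]

theorem ln_smul {W : MvPolynomial (Fin 6) ℂ} {n : ℕ} (hW : W.IsHomogeneous n) (c : ℂ)
    (x : Fin 6 → ℂ) : eval (c • x) W = c ^ n * eval x W := by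
  rw [eval_eq', eval_eq', Finset.mul_sum]
  refine Finset.sum_congr rfl fun m hm => ?_
  have : ∑ i, m i = n := by
    rw [← Finsupp.degree_eq_sum, Finsupp.degree_eq_weight_one]
    exact hW (mem_support_iff.1 hm)
  simp only [Pi.smul_apply, smul_eq_mul, mul_pow, Finset.prod_mul_distrib,
    Finset.prod_pow_eq_pow_sum, this]
  ring

section dec

variable (L : Fin 4 → MvPolynomial (Fin 6) ℂ) (σ τ : MvPolynomial (Fin 6) ℂ)

/-- adapted linear forms -/
structure Ad : Prop where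
  hs : σ.IsHomogeneous 1
  ht : τ.IsHomogeneous 1
  hX : ∀ j, ∃ (e : Fin 4 → ℂ) (a b : ℂ), X j = ∑ i, L i * C (e i) + (C a * σ + C b * τ)

variable {L σ τ} (h : Ad L σ τ)
include h

theorem Ad.d1 {u : MvPolynomial (Fin 6) ℂ} (hu : u.IsHomogeneous 1) :
    ∃ (e : Fin 4 → ℂ) (a b : ℂ), u = ∑ i, L i * C (e i) + (C a * σ + C b * τ) := by
  rw [← mem_homogeneousSubmodule, homogeneousSubmodule_one_eq_span_X] at hu
  induction hu using Submodule.span_induction with
  | mem x hx => obtain ⟨j, rfl⟩ := hx; exact h.hX j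
  | zero => exact ⟨0, 0, 0, by simp⟩
  | add x y _ _ hx hy =>
    obtain ⟨e, a, b, rfl⟩ := hx
    obtain ⟨e', a', b', rfl⟩ := hy
    refine ⟨e + e', a + a', b + b', ?_⟩
    simp only [Pi.add_apply, map_add, mul_add, Finset.sum_add_distrib]
    ring
  | smul c x _ hx =>
    obtain ⟨e, a, b, rfl⟩ := hx
    refine ⟨c • e, c * a, c * b, ?_⟩
    simp only [Pi.smul_apply, smul_eq_mul, map_mul, smul_eq_C_mul, Fin.sum_univ_four]
    ring

theorem Ad.d2 {q : MvPolynomial (Fin 6) ℂ} (hq : q.IsHomogeneous 2) :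
    ∃ b : Fin 4 → MvPolynomial (Fin 6) ℂ, (∀ i, (b i).IsHomogeneous 1) ∧ ∃ α β γ : ℂ,
      q = ∑ i, L i * b i + (C α * σ ^ 2 + C β * (σ * τ) + C γ * τ ^ 2) := by
  rw [← mem_homogeneousSubmodule, ← homogeneousSubmodule_one_pow, pow_two] at hq
  refine Submodule.mul_induction_on hq (fun u hu u' hu' => ?_) ?_
  · obtain ⟨e, a, b, e1⟩ := h.d1 hu
    obtain ⟨e', a', b', e2⟩ := h.d1 hu'
    refine ⟨fun i => C (e i) * u' + C (e' i) * (C a * σ + C b * τ), fun i =>
      (IsHomogeneous.C_mul hu' _).add (((h.hs.C_mul _).add (h.ht.C_mul _)).C_mul _),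
      a * a', a * b' + b * a', b * b', ?_⟩
    rw [e1, e2]
    simp only [map_add, map_mul, Fin.sum_univ_four]
    ring
  · rintro _ _ ⟨b, hb, α, β, γ, rfl⟩ ⟨b', hb', α', β', γ', rfl⟩
    refine ⟨b + b', fun i => (hb i).add (hb' i), α + α', β + β', γ + γ', ?_⟩
    simp only [Pi.add_apply, map_add, Fin.sum_univ_four]
    ring

theorem Ad.d3 {A : MvPolynomial (Fin 6) ℂ} (hA : A.IsHomogeneous 3) :
    ∃ a : Fin 4 → MvPolynomial (Fin 6) ℂ, (∀ i, (a i).IsHomogeneous 2) ∧ ∃ c : Fin 4 → ℂ,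
      A = ∑ i, L i * a i + (C (c 0) * σ ^ 3 + C (c 1) * (σ ^ 2 * τ) + C (c 2) * (σ * τ ^ 2) +
        C (c 3) * τ ^ 3) := by
  rw [← mem_homogeneousSubmodule, ← homogeneousSubmodule_one_pow, pow_succ,
    homogeneousSubmodule_one_pow] at hA
  refine Submodule.mul_induction_on hA (fun q hq u hu => ?_) ?_
  · obtain ⟨b, hb, α, β, γ, e1⟩ := h.d2 hq
    obtain ⟨e, a', b', e2⟩ := h.d1 hu
    refine ⟨fun i => b i * u + C (e i) * (C α * σ ^ 2 + C β * (σ * τ) + C γ * τ ^ 2), fun i =>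
      ((hb i).mul hu).add (((((h.hs.pow 2).C_mul _).add ((h.hs.mul h.ht).C_mul _)).add
        ((h.ht.pow 2).C_mul _)).C_mul _),
      ![α * a', α * b' + β * a', β * b' + γ * a', γ * b'], ?_⟩
    rw [e1, e2]
    simp only [map_add, map_mul, Fin.sum_univ_four, Matrix.cons_val_zero, Matrix.cons_val_one,
      Matrix.cons_val]
    ring
  · rintro _ _ ⟨a, ha, c, rfl⟩ ⟨a', ha', c', rfl⟩
    refine ⟨a + a', fun i => (ha i).add (ha' i), c + c', ?_⟩
    simp only [Pi.add_apply, map_add, Fin.sum_univ_four]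
    ring

end dec

/-- **A line on the cubic**, with the surjectivity of the differential of `(l, q) ↦ ∑ lᵢ qᵢ`. -/
theorem line {W : MvPolynomial (Fin 6) ℂ} (hW : W.IsHomogeneous 3)
    (hs : ∀ x : Fin 6 → ℂ, (∀ j, eval x (pderiv j W) = 0) → x = 0) :
    ∃ l q : Fin 4 → MvPolynomial (Fin 6) ℂ, (∀ i, (l i).IsHomogeneous 1) ∧
      (∀ i, (q i).IsHomogeneous 2) ∧ W = ∑ i, l i * q i ∧
      ∀ A : MvPolynomial (Fin 6) ℂ, A.IsHomogeneous 3 →
        ∃ a b : Fin 4 → MvPolynomial (Fin 6) ℂ, (∀ i, (a i).IsHomogeneous 2) ∧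
          (∀ i, (b i).IsHomogeneous 1) ∧ A = ∑ i, (l i * a i + b i * q i) := by
  have z0 : eval 0 W = 0 := by simpa using ln_smul hW 0 0
  obtain ⟨p, p0, hp⟩ := P297.H572.Half.common_zero (k := ℂ) (σ := Fin 6) (τ := Unit) (by simp)
    (fun _ => W) fun _ => z0
  have wp : eval p W = 0 := hp ()
  obtain ⟨k, hk⟩ := Function.ne_iff.1 p0
  have ev : ∀ (c : ℂ) (y : Fin 6 → ℂ), aeval y (aeval (fun i => C (c * p i) + X i) W :
      MvPolynomial (Fin 6) ℂ) = eval (c • p + y) W := fun c y => by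
    rw [← AlgHom.comp_apply, comp_aeval]
    simp only [map_add, aeval_C, aeval_X]
    rfl
  obtain ⟨y, y0, hy⟩ := P297.H572.Half.common_zero (k := ℂ) (σ := Fin 6) (τ := Fin 4) (by simp)
    ![X k, aeval (fun i => C (0 * p i) + X i) W, aeval (fun i => C (1 * p i) + X i) W,
      aeval (fun i => C (-1 * p i) + X i) W] fun i => by
      fin_cases i
      · simp
      all_goals exact (ev _ _).trans (by rw [add_zero, ln_smul hW, wp, mul_zero])
  have yk : y k = 0 := by simpa using hy 0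
  have w0 : eval ((0 : ℂ) • p + (1 : ℂ) • y) W = 0 := by rw [one_smul, ← ev]; exact hy 1
  have w1 : eval ((1 : ℂ) • p + (1 : ℂ) • y) W = 0 := by rw [one_smul ℂ y, ← ev]; exact hy 2
  have w2 : eval ((-1 : ℂ) • p + (1 : ℂ) • y) W = 0 := by rw [one_smul, ← ev]; exact hy 3
  have w3 : eval ((1 : ℂ) • p + (0 : ℂ) • y) W = 0 := by rw [one_smul, zero_smul, add_zero, wp]
  obtain ⟨j0, hj⟩ := Function.ne_iff.1 y0
  obtain ⟨j, rfl⟩ := Fin.exists_succAbove_eq (x := j0) (y := k) fun e => hj (e ▸ yk)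
  replace hk : p k ≠ 0 := hk
  replace hj : y (k.succAbove j) ≠ 0 := hj
  obtain ⟨σ, eσ⟩ : ∃ σ : MvPolynomial (Fin 6) ℂ, σ = C (p k)⁻¹ * X k := ⟨_, rfl⟩
  obtain ⟨τ, eτ⟩ : ∃ τ : MvPolynomial (Fin 6) ℂ,
      τ = C (y (k.succAbove j))⁻¹ * (X (k.succAbove j) - C (p (k.succAbove j)) * σ) := ⟨_, rfl⟩
  have hσ : σ.IsHomogeneous 1 := eσ ▸ (isHomogeneous_X _ _).C_mul _
  have hτ : τ.IsHomogeneous 1 := eτ ▸ ((isHomogeneous_X _ _).sub (hσ.C_mul _)).C_mul _
  let l6 : Fin 6 → MvPolynomial (Fin 6) ℂ := fun i => X i - (C (p i) * σ + C (y i) * τ)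
  let L : Fin 4 → MvPolynomial (Fin 6) ℂ := fun i => l6 (k.succAbove (j.succAbove i))
  have hL : ∀ i, (L i).IsHomogeneous 1 := fun i =>
    (isHomogeneous_X _ _).sub ((hσ.C_mul _).add (hτ.C_mul _))
  have ad : Ad L σ τ := by
    refine ⟨hσ, hτ, fun i => ?_⟩
    rcases Fin.eq_self_or_eq_succAbove k i with rfl | ⟨i, rfl⟩
    · refine ⟨0, p i, 0, ?_⟩
      simp [eσ, ← mul_assoc, ← map_mul, hk]
    rcases Fin.eq_self_or_eq_succAbove j i with rfl | ⟨i, rfl⟩
    · refine ⟨0, p (k.succAbove i), y (k.succAbove i), ?_⟩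
      simp [eτ, ← mul_assoc, ← map_mul, hj]
    · refine ⟨Pi.single i 1, p (k.succAbove (j.succAbove i)), y (k.succAbove (j.succAbove i)), ?_⟩
      rw [Finset.sum_eq_single i (fun b _ hb => by simp [hb]) (by simp)]
      simp [L, l6]
  have es : ∀ s t : ℂ, eval (s • p + t • y) σ = s := fun s t => by
    simp only [eσ, map_mul, eval_C, eval_X, Pi.add_apply, Pi.smul_apply, yk, smul_eq_mul]
    field_simp
    ring
  have et : ∀ s t : ℂ, eval (s • p + t • y) τ = t := fun s t => by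
    simp only [eτ, map_mul, map_sub, eval_C, eval_X, Pi.add_apply, Pi.smul_apply, es, smul_eq_mul]
    field_simp
    ring
  have el : ∀ (s t : ℂ) i, eval (s • p + t • y) (L i) = 0 := fun s t i => by
    simp only [L, l6, map_mul, map_sub, map_add, eval_C, eval_X, Pi.add_apply, Pi.smul_apply, es,
      et, smul_eq_mul]
    ring
  obtain ⟨q, hq, c, eW⟩ := ad.d3 hW
  have ew : ∀ s t : ℂ, eval (s • p + t • y) W =
      c 0 * s ^ 3 + c 1 * (s ^ 2 * t) + c 2 * (s * t ^ 2) + c 3 * t ^ 3 := fun s t => by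
    rw [eW]
    simp [es, et, el]
  rw [ew] at w0 w1 w2 w3
  have c0 : c 0 = 0 := by linear_combination w3
  have c3 : c 3 = 0 := by linear_combination w0
  have c1 : c 1 = 0 := by linear_combination w1 / 2 + w2 / 2 - w0
  have c2 : c 2 = 0 := by linear_combination w1 / 2 - w2 / 2 - w3
  replace eW : W = ∑ i, L i * q i := by rw [eW, c0, c1, c2, c3]; simp
  choose b hb α β γ eq using fun i => ad.d2 (hq i)
  refine ⟨L, q, hL, hq, eW, fun A hA => ?_⟩
  obtain ⟨a, ha, cA, eA⟩ := ad.d3 hA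
  obtain ⟨e, f, e0, e1, e2, e3⟩ := ln_bin α β γ (fun s t hst => by
    have hz : ∀ i, eval (s • p + t • y) (q i) = 0 := fun i => by
      rw [eq i, ← hst i]
      simp [es, et, el]
    have := hs (s • p + t • y) fun m => by
      rw [eW]
      simp [Derivation.leibniz, hz, el]
    exact ⟨by rw [← es s t, this]; simpa using ln_smul hσ 0 0,
      by rw [← et s t, this]; simpa using ln_smul hτ 0 0⟩) cA
  refine ⟨fun i => a i - ∑ m, (C (e m) * σ + C (f m) * τ) * b m i,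
    fun i => C (e i) * σ + C (f i) * τ, fun i => (ha i).sub (IsHomogeneous.sum _ _ _ fun m _ =>
      ((hσ.C_mul _).add (hτ.C_mul _)).mul (hb m i)), fun i => (hσ.C_mul _).add (hτ.C_mul _), ?_⟩
  rw [eA, e0, e1, e2, e3]
  simp only [Fin.sum_univ_four, map_add, map_mul]
  rw [eq 0, eq 1, eq 2, eq 3]
  simp only [Fin.sum_univ_four]
  ring

end Vale.Agent.P287T.To
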